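import Vale.Agent.P019.Mono2
import Vale.Agent.P019.GaussA
import Vale.Agent.P019.GaussB

/-!
P019 Gauss: existence of valuation rings.
`exists_gauss`: `A` = image of `O₁[Z]` in `F`, `𝔭` = polynomials with coefficients in `m₁` (kernel
of `O₁[Z] → κ₁[Z]`), `exists_val_of_prime`.  `exists_mono`: well-order `ι`, order `ι →₀ ℤ`
lexicographically; `k[ι →₀ ℤ] → F` (`AddMonoidAlgebra`, `n ↦ u^n`) is injective; `A` = elements
with support in `{n ≥ 0}`, `𝔭` = kernel of the coefficient at `0`; `u^n ∈ 𝔭` for `n > 0`.
`exists_refine`: apply `exists_mono` in the residue field over `κ(z̄)`, then `exists_comp`.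
`exists_omega`: Zorn gives a minimal valuation ring containing the ring `A` generated by `T, T⁻¹`
(intersections of chains are valuation rings); by minimality (`exists_comp`) no proper valuation
ring of the residue field contains the image of `A`, so the residue field is integral over it
(`iInf_valuationSubring_superset`), the image is a field of finite type over `ℤ`, so finite
(`finite_of_finite_type_of_isJacobsonRing`).
`arch_of_alg`: in a relation `Σ c_ij y^i a^j = 0` (`c_ij ∈ A`) two terms have the same value.
-/
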